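import Vale.Agent.P095.General.Central.Base
import Vale.Agent.P101.Central

/-!
Index maps: reindexed central sequences keep their norms, commute with each other and with the
original ones.
-/

noncomputable section

open Filter Topology
open scoped BoundedContinuousFunction

namespace Vale.Agent.P095.General

open Vale.Agent.P101 (nrm tendsto_nrm isNull_iff reidx reidx_apply)

universe u

variable {B : Type u} [CStarAlgebra B] {ω : Ultrafilter ℕ} {I : StarIdl B}

lemma tendsto_comm_mul {x : ℕ →ᵇ B} (hx : IsCentralI ω I x) (y : B) {a : B} (ha : a ∈ I.carrier) :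
    Tendsto (fun p => ‖(x p * y - y * x p) * a‖) (ω : Filter ℕ) (𝓝 0) := by
  refine squeeze_zero (g := fun p => ‖x p * (y * a) - y * a * x p‖ + ‖y‖ * ‖x p * a - a * x p‖)
    (fun p => norm_nonneg _) (fun p => ?_) ?_
  · calc ‖(x p * y - y * x p) * a‖
        = ‖(x p * (y * a) - y * a * x p) - y * (x p * a - a * x p)‖ := by
          congr 1; noncomm_ring
      _ ≤ _ := (norm_sub_le _ _).trans (add_le_add le_rfl (norm_mul_le _ _))
  · simpa using (hx (y * a) (I.mul_mem_left y ha)).add ((hx a ha).const_mul ‖y‖)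

/-- Index maps for a countable family of central sequences. -/
theorem exists_indexI (hω : (ω : Filter ℕ) ≤ cofinite) (D : DenseIn I)
    (e : ℕ → ↥(centralI ω I)) :
    ∃ m : ℕ → ℕ → ℕ,
      (∀ k i, IsCentralI ω I (reidx (m k) (e i : ℕ →ᵇ B))) ∧
      (∀ k i, nI ω I (reidx (m k) (e i : ℕ →ᵇ B)) = nI ω I (e i : ℕ →ᵇ B)) ∧
      (∀ j k, j < k → ∀ i i', IsNullI ω I
        (reidx (m k) (e i : ℕ →ᵇ B) * reidx (m j) (e i' : ℕ →ᵇ B)
          - reidx (m j) (e i' : ℕ →ᵇ B) * reidx (m k) (e i : ℕ →ᵇ B))) ∧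
      (∀ k i i', IsNullI ω I (reidx (m k) (e i : ℕ →ᵇ B) * (e i' : ℕ →ᵇ B)
          - (e i' : ℕ →ᵇ B) * reidx (m k) (e i : ℕ →ᵇ B))) := by
  classical
  let good : ℕ → (k : ℕ) → ((j : ℕ) → j < k → ℕ) → ℕ → Prop := fun n k prev p =>
    ∀ i ≤ n, ∀ t ≤ n,
      ‖(e i : ℕ →ᵇ B) p * D.seq t - D.seq t * (e i : ℕ →ᵇ B) p‖ < 1 / ((n : ℝ) + 1) ∧
      |‖(e i : ℕ →ᵇ B) p * D.seq t‖ - nrm ω ((e i : ℕ →ᵇ B) * cstI (D.seq t))|
        < 1 / ((n : ℝ) + 1) ∧
      ∀ i' ≤ n, ∀ q, (q = n ∨ ∃ (j : ℕ) (hj : j < k), prev j hj = q) →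
        ‖((e i : ℕ →ᵇ B) p * (e i' : ℕ →ᵇ B) q - (e i' : ℕ →ᵇ B) q * (e i : ℕ →ᵇ B) p) * D.seq t‖
          < 1 / ((n : ℝ) + 1)
  have hgood : ∀ n k prev, ∃ p, good n k prev p := by
    intro n k prev
    have hpos : (0 : ℝ) < 1 / ((n : ℝ) + 1) := by positivity
    refine Filter.Eventually.exists (f := (ω : Filter ℕ)) ?_
    refine (Set.finite_Iic n).eventually_all.2 fun i _ => (Set.finite_Iic n).eventually_all.2
      fun t _ => ((((e i).2 _ (D.mem t)).eventually_lt_const hpos).and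
        (((tendsto_nrm (ω := ω) ((e i : ℕ →ᵇ B) * cstI (D.seq t))).eventually
          (eventually_abs_sub_lt _ hpos)).and ?_))
    refine (Set.finite_Iic n).eventually_all.2 fun i' _ => ?_
    have hfin : Set.Finite {q | q = n ∨ ∃ (j : ℕ) (hj : j < k), prev j hj = q} := by
      refine ((Set.finite_singleton n).union (Set.finite_range fun j : Fin k => prev j.1 j.2)).subset
        fun q hq => ?_
      rcases hq with h | ⟨j, hj, h⟩
      · exact Or.inl h
      · exact Or.inr ⟨⟨j, hj⟩, h⟩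
    exact hfin.eventually_all.2 fun q _ =>
      (tendsto_comm_mul (e i).2 ((e i' : ℕ →ᵇ B) q) (D.mem t)).eventually_lt_const hpos
  let M : ℕ → ℕ → ℕ := fun n k => Nat.strongRecOn k fun k ih => (hgood n k ih).choose
  have hM : ∀ n k, good n k (fun j _ => M n j) (M n k) := by
    intro n k
    have : M n k = (hgood n k fun j _ => M n j).choose := by
      simp only [M]
      rw [Nat.strongRecOn_eq]
    rw [this]
    exact (hgood n k _).choose_spec
  have hat := Vale.Agent.P101.tendsto_atTop_omega hω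
  have hsmall : Tendsto (fun n : ℕ => 1 / ((n : ℝ) + 1)) (ω : Filter ℕ) (𝓝 0) :=
    tendsto_one_div_add_atTop_nhds_zero_nat.mono_left hat
  have hge : ∀ i : ℕ, ∀ᶠ n in (ω : Filter ℕ), i ≤ n := fun i => hat (eventually_ge_atTop i)
  have hnrm : ∀ k i t, nrm ω (reidx (fun n => M n k) (e i : ℕ →ᵇ B) * cstI (D.seq t))
      = nrm ω ((e i : ℕ →ᵇ B) * cstI (D.seq t)) := fun k i t => by
    refine tendsto_nhds_unique (tendsto_nrm _) ?_
    rw [tendsto_iff_norm_sub_tendsto_zero]
    refine squeeze_zero' (Eventually.of_forall fun n => norm_nonneg _) ?_ hsmall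
    filter_upwards [hge i, hge t] with n hi ht
    exact (hM n k i hi t ht).2.1.le
  refine ⟨fun k n => M n k, fun k i => isCentralI_of_dense D fun t => ?_, fun k i => ?_,
    fun j k hjk i i' => isNullI_of_dense D fun t => ?_, fun k i i' => isNullI_of_dense D fun t => ?_⟩
  · refine squeeze_zero' (Eventually.of_forall fun n => norm_nonneg _) ?_ hsmall
    filter_upwards [hge i, hge t] with n hi ht
    exact (hM n k i hi t ht).1.le
  · refine le_antisymm (nI_le_of_dense D (nI_nonneg _) fun t => ?_)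
      (nI_le_of_dense D (nI_nonneg _) fun t => ?_)
    · rw [hnrm]; exact nrm_cstI_le _ (D.mem t)
    · rw [← hnrm k]; exact nrm_cstI_le _ (D.mem t)
  · refine squeeze_zero' (Eventually.of_forall fun n => norm_nonneg _) ?_ hsmall
    filter_upwards [hge i, hge i', hge t] with n hi hi' ht
    exact ((hM n k i hi t ht).2.2 i' hi' (M n j) (Or.inr ⟨j, hjk, rfl⟩)).le
  · refine squeeze_zero' (Eventually.of_forall fun n => norm_nonneg _) ?_ hsmall
    filter_upwards [hge i, hge i', hge t] with n hi hi' ht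
    exact ((hM n k i hi t ht).2.2 i' hi' n (Or.inl rfl)).le

end Vale.Agent.P095.General
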