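import Vale.Agent.P095.General.Central.Quot

/-!
Images of C*-algebras under contractive homomorphisms are closed.
-/

noncomputable section

open Filter Topology

namespace Vale.Agent.P095.General

universe u

/-- Points in the closure of the image of a C*-algebra have lifts. -/
theorem exists_lift_closure {C : Type u} [CStarAlgebra C] {R : Type u} [CStarAlgebra R]
    (π : C →⋆ₐ[ℂ] R) {y : R} (hy : y ∈ closure (Set.range π)) : ∃ z, π z = y := by
  have hπ : ∀ z, ‖π z‖ ≤ ‖z‖ := NonUnitalStarAlgHom.norm_apply_le π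
  have happ : ∀ k : ℕ, ∃ z : C, ‖y - π z‖ < (1 / 2) ^ k := fun k => by
    obtain ⟨_, ⟨z, rfl⟩, hz⟩ := Metric.mem_closure_iff.1 hy ((1 / 2) ^ k) (by positivity)
    exact ⟨z, by rwa [← dist_eq_norm]⟩
  choose z hz using happ
  have hd : ∀ k, ∃ w : C, π w = π (z (k + 1) - z k) ∧ ‖w‖ ≤ 2 * (1 / 2) ^ k := fun k => by
    refine exists_lift_cut π hπ _ ?_
    rw [map_sub]
    calc ‖π (z (k + 1)) - π (z k)‖ = ‖(y - π (z k)) - (y - π (z (k + 1)))‖ := by
          congr 1; abel
      _ ≤ ‖y - π (z k)‖ + ‖y - π (z (k + 1))‖ := norm_sub_le _ _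
      _ < (1 / 2) ^ k + (1 / 2) ^ (k + 1) := add_lt_add (hz k) (hz (k + 1))
      _ ≤ 2 * (1 / 2) ^ k := by
          have : (0 : ℝ) ≤ (1 / 2) ^ k := by positivity
          rw [pow_succ]; linarith
  choose w hw hwn using hd
  have hs : Summable w := Summable.of_norm_bounded (summable_geometric_two.mul_left 2) hwn
  refine ⟨z 0 + ∑' k, w k, ?_⟩
  have hc : Continuous π :=
    AddMonoidHomClass.continuous_of_bound π 1 fun x => by rw [one_mul]; exact hπ x
  have h1 : Tendsto (fun n => π (z 0 + ∑ k ∈ Finset.range n, w k)) atTop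
      (𝓝 (π (z 0 + ∑' k, w k))) :=
    (hc.tendsto _).comp (hs.hasSum.tendsto_sum_nat.const_add (z 0))
  have h2 : ∀ n, π (z 0 + ∑ k ∈ Finset.range n, w k) = π (z n) := fun n => by
    simp only [map_add, map_sum, hw, map_sub]
    rw [Finset.sum_range_sub (fun k => π (z k)), add_sub_cancel]
  simp only [h2] at h1
  refine tendsto_nhds_unique h1 (tendsto_iff_norm_sub_tendsto_zero.2 ?_)
  refine squeeze_zero (fun n => norm_nonneg _) (fun n => ?_)
    (tendsto_pow_atTop_nhds_zero_of_lt_one (by norm_num : (0 : ℝ) ≤ 1 / 2) (by norm_num))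
  rw [norm_sub_rev]
  exact (hz n).le

end Vale.Agent.P095.General
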