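import Vale.Agent.P095.General.Defs
import Vale.Agent.P095.General.Central.Index
import Vale.Agent.P095.General.Central.Lift

/-!
Equivariant commuting copies of separable invariant pieces of the central sequence algebra.
-/

noncomputable section

open Filter Topology
open scoped BoundedContinuousFunction

namespace Vale.Agent.P095.General

open Vale.Agent.P101 (nrm reidx reidxHom continuous_reidx)

universe u v

variable {B : Type u} [CStarAlgebra B] {G : Type v} [Group G] [Countable G] (ω : Ultrafilter ℕ)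
  (I : StarIdl B) (α : G → B ≃⋆ₐ[ℂ] B) (hP : ∀ g, Pres I (α g))
  (hα : ∀ g h x, α (g * h) x = α g (α h x))

omit [Group G] [Countable G] in
/-- The algebra generated by a countable set is separable. -/
lemma isSeparable_adjoin {D : Type u} [CStarAlgebra D] {O : Set D} (hO : O.Countable) :
    TopologicalSpace.IsSeparable (StarAlgebra.adjoin ℂ O : Set D) := by
  let O' : Set D := O ∪ star '' O
  have hO' : O'.Countable := hO.union (hO.image _)
  have h1 : (StarAlgebra.adjoin ℂ O : Set D) =
      (Submodule.span ℂ (Submonoid.closure O' : Set D) : Set D) := by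
    have := Algebra.adjoin_eq_span ℂ O'
    rw [← StarSubalgebra.coe_toSubalgebra, StarAlgebra.adjoin_toSubalgebra, ← Set.image_star]
    exact congrArg (fun M : Submodule ℂ D => (M : Set D)) this
  rw [h1]
  refine TopologicalSpace.IsSeparable.span ?_
  rw [Submonoid.closure_eq_mrange, MonoidHom.coe_mrange]
  have := hO'.to_subtype
  exact (Set.countable_range _).isSeparable

omit [Group G] [Countable G] in
/-- A homomorphism on a subalgebra, through lifts. -/
lemma exists_hom_of_lift {C R : Type u} [CStarAlgebra C] [CStarAlgebra R] (T : StarSubalgebra ℂ R)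
    (π Ψ : C →⋆ₐ[ℂ] R) (l : T → C) (hl : ∀ y : T, π (l y) = (y : R))
    (hwell : ∀ a b, π a = π b → Ψ a = Ψ b) :
    ∃ f : ↥T →⋆ₐ[ℂ] R, ∀ y, f y = Ψ (l y) :=
  ⟨{  toFun := fun y => Ψ (l y)
      map_one' := by
        rw [hwell (l 1) 1 (by rw [hl, map_one]; rfl), map_one]
      map_mul' := fun y z => by
        rw [hwell (l (y * z)) (l y * l z) (by rw [hl, map_mul, hl, hl]; rfl), map_mul]
      map_zero' := by
        rw [hwell (l 0) 0 (by rw [hl, map_zero]; rfl), map_zero]
      map_add' := fun y z => by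
        rw [hwell (l (y + z)) (l y + l z) (by rw [hl, map_add, hl, hl]; rfl), map_add]
      commutes' := fun c => by
        rw [hwell (l (algebraMap ℂ _ c)) (algebraMap ℂ _ c)
          (by rw [hl, AlgHomClass.commutes]; rfl), AlgHomClass.commutes]
      map_star' := fun y => by
        rw [hwell (l (star y)) (star (l y)) (by rw [hl, map_star, hl]; rfl), map_star] },
    fun _ => rfl⟩

include hP in
/-- Equivariant commuting copies. -/
theorem copiesI (hω : (ω : Filter ℕ) ≤ cofinite) (D : DenseIn I) (S : Set (FQ ω I))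
    (hS : S.Countable) :
    ∃ ι : ℕ → ↥(gen (actI ω I α hP hα) S) →⋆ₐ[ℂ] FQ ω I,
      (∀ k g (x y : ↥(gen (actI ω I α hP hα) S)),
        (y : FQ ω I) = actI ω I α hP hα g x → ι k y = actI ω I α hP hα g (ι k x)) ∧
      (∀ j k, j ≠ k → ∀ x y, Commute (ι j x) (ι k y)) ∧
      ∀ k x (y : ↥(gen (actI ω I α hP hα) S)), Commute (ι k x) (y : FQ ω I) := by
  classical
  set act := actI ω I α hP hα
  let r : FQ ω I → ↥(centralI ω I) := Function.surjInv (projI_surjective ω I)
  have hr : ∀ z, projI ω I (r z) = z := Function.surjInv_eq (projI_surjective ω I)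
  let L : Set ↥(centralI ω I) := r '' S ∪ ⋃ g, centralActI ω I (hP g) '' (r '' S)
  have hL : L.Countable :=
    (hS.image r).union (Set.countable_iUnion fun g => (hS.image r).image _)
  let E : StarSubalgebra ℂ ↥(centralI ω I) := (StarAlgebra.adjoin ℂ L).topologicalClosure
  have : IsClosed (E : Set ↥(centralI ω I)) := StarSubalgebra.isClosed_topologicalClosure _
  have hLE : L ⊆ E := fun x hx =>
    StarSubalgebra.le_topologicalClosure _ (StarAlgebra.subset_adjoin ℂ L hx)
  have hLinv : ∀ g, ∀ y ∈ L, centralActI ω I (hP g) y ∈ L := by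
    intro g y hy
    rcases hy with hy | hy
    · exact Or.inr (Set.mem_iUnion.2 ⟨g, y, hy, rfl⟩)
    · obtain ⟨h, x, hx, rfl⟩ := Set.mem_iUnion.1 hy
      refine Or.inr (Set.mem_iUnion.2 ⟨g * h, x, hx, ?_⟩)
      refine Subtype.ext ?_
      ext m
      exact hα g h _
  have hactc : ∀ g, Continuous (centralActI ω I (hP g)) := fun g =>
    AddMonoidHomClass.continuous_of_bound _ 1 fun x => by
      rw [one_mul]; exact NonUnitalStarAlgHom.norm_apply_le (centralActI ω I (hP g)) x
  have hEinv : ∀ g, ∀ x ∈ E, centralActI ω I (hP g) x ∈ E := fun g x hx => by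
    refine closure_minimal (s := (StarAlgebra.adjoin ℂ L : Set ↥(centralI ω I)))
      (t := centralActI ω I (hP g) ⁻¹' (E : Set ↥(centralI ω I))) ?_
      ((StarSubalgebra.isClosed_topologicalClosure _).preimage (hactc g)) hx
    exact fun z hz => StarAlgebra.adjoin_le
      (S := StarSubalgebra.comap (centralActI ω I (hP g)) E)
      (fun y hy => hLE (hLinv g y hy)) hz
  let e : G → ↥E → ↥E := fun g x => ⟨centralActI ω I (hP g) x, hEinv g x x.2⟩
  let π : ↥E →⋆ₐ[ℂ] FQ ω I := (projI ω I).comp E.subtype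
  have hπgen : ∀ x : ↥E, π x ∈ gen act S := by
    intro x
    have hcl : IsClosed (projI ω I ⁻¹' (gen act S : Set (FQ ω I))) :=
      (StarSubalgebra.isClosed_topologicalClosure _).preimage (continuous_projI ω I)
    refine closure_minimal (s := (StarAlgebra.adjoin ℂ L : Set ↥(centralI ω I))) (fun z hz => ?_)
      hcl x.2
    refine StarAlgebra.adjoin_le (S := StarSubalgebra.comap (projI ω I) (gen act S)) ?_ hz
    rintro y (⟨s, hs, rfl⟩ | hy)
    · show projI ω I (r s) ∈ gen act S
      rw [hr]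
      exact StarSubalgebra.le_topologicalClosure _ (StarAlgebra.subset_adjoin ℂ _ (Or.inl hs))
    · obtain ⟨g, z, ⟨s, hs, rfl⟩, rfl⟩ := Set.mem_iUnion.1 hy
      show projI ω I (centralActI ω I (hP g) (r s)) ∈ gen act S
      rw [← actI_proj ω I α hP hα, hr]
      exact StarSubalgebra.le_topologicalClosure _ (StarAlgebra.subset_adjoin ℂ _
        (Or.inr (Set.mem_iUnion.2 ⟨g, s, hs, rfl⟩)))
  have hlift : ∀ y : ↥(gen act S), ∃ x : ↥E, π x = (y : FQ ω I) := by
    intro y
    have hy : (y : FQ ω I) ∈ closure (StarAlgebra.adjoin ℂ (orbit act S) : Set (FQ ω I)) := by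
      rw [← StarSubalgebra.topologicalClosure_coe]
      exact y.2
    refine exists_lift_closure (C := ↥E) (R := FQ ω I) π (closure_mono ?_ hy)
    intro z hz
    refine StarAlgebra.adjoin_le (S := π.range) ?_ hz
    rintro w (hw | hw)
    · exact ⟨⟨r w, hLE (Or.inl ⟨w, hw, rfl⟩)⟩, hr w⟩
    · obtain ⟨g, s, hs, rfl⟩ := Set.mem_iUnion.1 hw
      refine ⟨⟨centralActI ω I (hP g) (r s),
        hLE (Or.inr (Set.mem_iUnion.2 ⟨g, r s, ⟨s, hs, rfl⟩, rfl⟩))⟩, ?_⟩
      show projI ω I (centralActI ω I (hP g) (r s)) = act g s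
      rw [← actI_proj ω I α hP hα, hr]
  have hsep : TopologicalSpace.SeparableSpace ↥E := ((isSeparable_adjoin hL).closure).separableSpace
  obtain ⟨d, hd⟩ := TopologicalSpace.exists_dense_seq ↥E
  obtain ⟨m, hm1, hm2, hm3, hm4⟩ := exists_indexI hω D fun i => (d i : ↥(centralI ω I))
  let v : ↥E → ℕ →ᵇ B := fun x => ((x : ↥(centralI ω I)) : ℕ →ᵇ B)
  have hvc : Continuous v := continuous_subtype_val.comp continuous_subtype_val
  have hrc : ∀ k (x : ↥E), IsCentralI ω I (reidx (m k) (v x)) := fun k x => by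
    have hcl : IsClosed {x : ↥E | reidx (m k) (v x) ∈ centralI ω I} :=
      (isClosed_centralI ω I).preimage ((continuous_reidx _).comp hvc)
    exact hd.induction_on (p := fun x : ↥E => reidx (m k) (v x) ∈ centralI ω I) x hcl fun i => hm1 k i
  let Ψ : ℕ → ↥E →⋆ₐ[ℂ] FQ ω I := fun k => (projI ω I).comp
    (StarAlgHom.codRestrict ((reidxHom (m k)).comp ((centralI ω I).subtype.comp E.subtype))
      (centralI ω I) fun x => hrc k x)
  have hΨc : ∀ k, Continuous (Ψ k) := fun k =>
    AddMonoidHomClass.continuous_of_bound (Ψ k) 1 fun x => by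
      rw [one_mul]; exact NonUnitalStarAlgHom.norm_apply_le (Ψ k) x
  have hπc : Continuous π := AddMonoidHomClass.continuous_of_bound π 1 fun x => by
    rw [one_mul]; exact NonUnitalStarAlgHom.norm_apply_le π x
  have hΨn : ∀ k x, ‖Ψ k x‖ = ‖π x‖ := fun k x =>
    hd.induction_on (p := fun x => ‖Ψ k x‖ = ‖π x‖) x
      (isClosed_eq (hΨc k).norm hπc.norm) fun i => hm2 k i
  have hwell : ∀ k (a b : ↥E), π a = π b → Ψ k a = Ψ k b := fun k a b h => by
    rw [← sub_eq_zero, ← map_sub, ← norm_eq_zero, hΨn, map_sub, h, sub_self, norm_zero]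
  have hnull : ∀ (x y : ↥(centralI ω I)),
      IsNullI ω I ((x : ℕ →ᵇ B) * y - (y : ℕ →ᵇ B) * x) → Commute (projI ω I x) (projI ω I y) :=
    fun x y h => by
      show _ * _ = _ * _
      rw [← map_mul, ← map_mul]
      exact (projI_eq_iff ω I _ _).2 h
  have hcomm : ∀ j k, j < k → ∀ a b, Commute (Ψ k a) (Ψ j b) := fun j k hjk a b =>
    (hd.prodMap hd).induction_on (p := fun q : ↥E × ↥E => Commute (Ψ k q.1) (Ψ j q.2)) (a, b)
      (isClosed_eq (((hΨc k).comp continuous_fst).mul ((hΨc j).comp continuous_snd))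
        (((hΨc j).comp continuous_snd).mul ((hΨc k).comp continuous_fst)))
      fun q => hnull _ _ (hm3 j k hjk q.1 q.2)
  have hcommπ : ∀ k a b, Commute (Ψ k a) (π b) := fun k a b =>
    (hd.prodMap hd).induction_on (p := fun q : ↥E × ↥E => Commute (Ψ k q.1) (π q.2)) (a, b)
      (isClosed_eq (((hΨc k).comp continuous_fst).mul (hπc.comp continuous_snd))
        ((hπc.comp continuous_snd).mul ((hΨc k).comp continuous_fst)))
      fun q => hnull _ _ (hm4 k q.1 q.2)
  have hΨe : ∀ k g (x : ↥E), Ψ k (e g x) = act g (Ψ k x) := by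
    intro k g x
    show projI ω I _ = act g (projI ω I _)
    rw [actI_proj]
    congr 1
  have hπe : ∀ g (x : ↥E), π (e g x) = act g (π x) := by
    intro g x
    show projI ω I _ = act g (projI ω I _)
    rw [actI_proj]
    rfl
  choose l hl using hlift
  choose f hf using fun k =>
    exists_hom_of_lift (C := ↥E) (R := FQ ω I) (gen act S) π (Ψ k) l hl (hwell k)
  refine ⟨f, fun k g x y hxy => ?_, fun j k hjk x y => ?_, fun k x y => ?_⟩
  · rw [hf, hf, hwell k (l y) (e g (l x)) (by rw [hl, hπe, hl, hxy]), hΨe]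
  · rw [hf, hf]
    rcases lt_or_gt_of_ne hjk with h | h
    · exact (hcomm j k h (l y) (l x)).symm
    · exact hcomm k j h (l x) (l y)
  · rw [hf, ← hl y]
    exact hcommπ k (l x) (l y)

end Vale.Agent.P095.General
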