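import Vale.Agent.P095.General.Central.Quot
import Vale.Agent.P095.Finite.Action

/-!
Density, the action on the central sequence algebra of an ideal, and approximate units.
-/

noncomputable section

open Filter Topology
open scoped BoundedContinuousFunction

namespace Vale.Agent.P095.General

open Vale.Agent.P101 (nrm tendsto_nrm cst continuous_nrm)

universe u v

variable {B : Type u} [CStarAlgebra B] {ω : Ultrafilter ℕ} {I : StarIdl B}

/-- A sequence in the ideal which is dense in it. -/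
structure DenseIn (I : StarIdl B) where
  /-- The sequence. -/
  seq : ℕ → B
  mem : ∀ t, seq t ∈ I.carrier
  dense : I.carrier ⊆ closure (Set.range seq)

lemma continuous_cstI : Continuous (cstI : B → ℕ →ᵇ B) :=
  (LipschitzWith.of_dist_le_mul (K := 1) fun x y => by
    simp only [NNReal.coe_one, one_mul]
    exact (BoundedContinuousFunction.dist_le dist_nonneg).2 fun _ => le_rfl).continuous

lemma isCentralI_of_dense (D : DenseIn I) {x : ℕ →ᵇ B}
    (h : ∀ t, Tendsto (fun n => ‖x n * D.seq t - D.seq t * x n‖) (ω : Filter ℕ) (𝓝 0)) :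
    IsCentralI ω I x := by
  rw [isCentralI_iff]
  intro a ha
  have hcl : IsClosed {b : B | nrm ω (x * cstI b - cstI b * x) = 0} :=
    isClosed_eq (continuous_nrm.comp (by have := continuous_cstI (B := B); fun_prop)) continuous_const
  refine closure_minimal (s := Set.range D.seq) ?_ hcl (D.dense ha)
  rintro _ ⟨t, rfl⟩
  exact (Vale.Agent.P101.isNull_iff _).1 (h t)

lemma nI_le_of_dense (D : DenseIn I) {x : ℕ →ᵇ B} {c : ℝ} (hc : 0 ≤ c)
    (h : ∀ t, nrm ω (x * cstI (D.seq t)) ≤ c * ‖D.seq t‖) : nI ω I x ≤ c := by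
  refine nI_le_of hc fun a ha => ?_
  have hcl : IsClosed {b : B | nrm ω (x * cstI b) ≤ c * ‖b‖} :=
    isClosed_le (continuous_nrm.comp (by have := continuous_cstI (B := B); fun_prop)) (by fun_prop)
  refine closure_minimal (s := Set.range D.seq) ?_ hcl (D.dense ha)
  rintro _ ⟨t, rfl⟩
  exact h t

lemma isNullI_of_dense (D : DenseIn I) {x : ℕ →ᵇ B}
    (h : ∀ t, Tendsto (fun n => ‖x n * D.seq t‖) (ω : Filter ℕ) (𝓝 0)) : IsNullI ω I x :=
  (isNullI_iff x).2 (le_antisymm (nI_le_of_dense D le_rfl fun t => by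
    rw [zero_mul]; exact ((Vale.Agent.P101.isNull_iff (ω := ω) (x * cstI (D.seq t))).1 (h t)).le) (nI_nonneg x))

lemma nI_le_of_eventually {x : ℕ →ᵇ B} {c : ℝ} (hc : 0 ≤ c)
    (h : ∀ᶠ n in (ω : Filter ℕ), ‖x n‖ ≤ c) : nI ω I x ≤ c :=
  nI_le_of hc fun a _ => le_of_tendsto (tendsto_nrm (ω := ω) (x * cstI a)) (h.mono fun n hn => by
    show ‖x n * a‖ ≤ c * ‖a‖
    exact (norm_mul_le _ _).trans (mul_le_mul_of_nonneg_right hn (norm_nonneg a)))

variable (ω) (I)

/-- An automorphism preserving the ideal. -/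
def Pres (φ : B ≃⋆ₐ[ℂ] B) : Prop := ∀ a ∈ I.carrier, φ a ∈ I.carrier ∧ φ.symm a ∈ I.carrier

variable {φ : B ≃⋆ₐ[ℂ] B}

lemma isCentralI_seqAct (hφ : Pres I φ) {x : ℕ →ᵇ B} (h : IsCentralI ω I x) :
    IsCentralI ω I (Finite.seqAct φ x) := fun a ha => by
  refine (h (φ.symm a) (hφ a ha).2).congr fun n => ?_
  rw [← Finite.norm_equiv φ (x n * φ.symm a - φ.symm a * x n)]
  simp [map_sub, map_mul]

/-- An automorphism on central sequences. -/
def centralActI (hφ : Pres I φ) : ↥(centralI ω I) →⋆ₐ[ℂ] ↥(centralI ω I) :=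
  StarAlgHom.codRestrict ((Finite.seqAct φ).comp (centralI ω I).subtype) (centralI ω I)
    fun x => isCentralI_seqAct ω I hφ x.2

lemma coe_centralActI (hφ : Pres I φ) (x : ↥(centralI ω I)) (n : ℕ) :
    ((centralActI ω I hφ x : ↥(centralI ω I)) : ℕ →ᵇ B) n = φ ((x : ℕ →ᵇ B) n) := rfl

/-- An automorphism on the quotient, as a function. -/
def actIFun (hφ : Pres I φ) (z : FQ ω I) : FQ ω I :=
  projI ω I (centralActI ω I hφ (Function.surjInv (projI_surjective ω I) z))

lemma actIFun_proj (hφ : Pres I φ) (x : ↥(centralI ω I)) :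
    actIFun ω I hφ (projI ω I x) = projI ω I (centralActI ω I hφ x) := by
  rw [actIFun, projI_eq_iff]
  have h := (projI_eq_iff ω I _ _).1 (Function.surjInv_eq (projI_surjective ω I) (projI ω I x))
  intro a ha
  refine (h (φ.symm a) (hφ a ha).2).congr fun n => ?_
  rw [← Finite.norm_equiv φ]
  simp [map_sub, map_mul, coe_centralActI]

/-- An automorphism on the quotient. -/
def actIHom (hφ : Pres I φ) : FQ ω I →⋆ₐ[ℂ] FQ ω I where
  toFun := actIFun ω I hφ
  map_one' := by
    rw [← map_one (projI ω I), actIFun_proj, map_one]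
  map_mul' x y := by
    obtain ⟨a, rfl⟩ := projI_surjective ω I x
    obtain ⟨b, rfl⟩ := projI_surjective ω I y
    rw [← map_mul, actIFun_proj, actIFun_proj, actIFun_proj, map_mul, map_mul]
  map_zero' := by
    rw [← map_zero (projI ω I), actIFun_proj, map_zero]
  map_add' x y := by
    obtain ⟨a, rfl⟩ := projI_surjective ω I x
    obtain ⟨b, rfl⟩ := projI_surjective ω I y
    rw [← map_add, actIFun_proj, actIFun_proj, actIFun_proj, map_add, map_add]
  commutes' z := by
    rw [← AlgHomClass.commutes (projI ω I) z, actIFun_proj, AlgHomClass.commutes]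
  map_star' x := by
    obtain ⟨a, rfl⟩ := projI_surjective ω I x
    rw [← map_star, actIFun_proj, actIFun_proj, map_star, map_star]

lemma actIHom_proj (hφ : Pres I φ) (x : ↥(centralI ω I)) :
    actIHom ω I hφ (projI ω I x) = projI ω I (centralActI ω I hφ x) := actIFun_proj ω I hφ x

variable {G : Type v} [Group G] (α : G → B ≃⋆ₐ[ℂ] B)

lemma actIHom_mul (hP : ∀ g, Pres I (α g)) (hα : ∀ g h x, α (g * h) x = α g (α h x)) (g h : G)
    (z : FQ ω I) :
    actIHom ω I (hP (g * h)) z = actIHom ω I (hP g) (actIHom ω I (hP h) z) := by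
  obtain ⟨a, rfl⟩ := projI_surjective ω I z
  rw [actIHom_proj, actIHom_proj, actIHom_proj]
  congr 1
  refine Subtype.ext ?_
  ext n
  exact hα g h _

lemma actIHom_one (hP : ∀ g, Pres I (α g)) (hα : ∀ g h x, α (g * h) x = α g (α h x))
    (z : FQ ω I) : actIHom ω I (hP 1) z = z := by
  obtain ⟨a, rfl⟩ := projI_surjective ω I z
  rw [actIHom_proj]
  congr 1
  refine Subtype.ext ?_
  ext n
  exact Finite.act_one α hα _

/-- The action on the quotient. -/
def actI (hP : ∀ g, Pres I (α g)) (hα : ∀ g h x, α (g * h) x = α g (α h x)) (g : G) :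
    FQ ω I ≃⋆ₐ[ℂ] FQ ω I :=
  StarAlgEquiv.ofStarAlgHom (actIHom ω I (hP g)) (actIHom ω I (hP g⁻¹))
    (StarAlgHom.ext fun x => by
      show actIHom ω I (hP g⁻¹) (actIHom ω I (hP g) x) = x
      rw [← actIHom_mul ω I α hP hα]
      simp only [inv_mul_cancel, actIHom_one ω I α hP hα])
    (StarAlgHom.ext fun x => by
      show actIHom ω I (hP g) (actIHom ω I (hP g⁻¹) x) = x
      rw [← actIHom_mul ω I α hP hα]
      simp only [mul_inv_cancel, actIHom_one ω I α hP hα])

lemma actI_proj (hP : ∀ g, Pres I (α g)) (hα : ∀ g h x, α (g * h) x = α g (α h x)) (g : G)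
    (x : ↥(centralI ω I)) :
    actI ω I α hP hα g (projI ω I x) = projI ω I (centralActI ω I (hP g) x) :=
  actIHom_proj ω I (hP g) x

lemma actI_mul (hP : ∀ g, Pres I (α g)) (hα : ∀ g h x, α (g * h) x = α g (α h x)) (g h : G)
    (z : FQ ω I) :
    actI ω I α hP hα (g * h) z = actI ω I α hP hα g (actI ω I α hP hα h z) :=
  actIHom_mul ω I α hP hα g h z

end Vale.Agent.P095.General
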