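import Vale.Agent.P095.General.Defs
import Vale.Agent.P095.General.Central.Base
import Vale.Agent.P101.Central

/-!
Representatives in the algebra itself for classes in its central sequence algebra, approximate
units, and the lifted action.
-/

noncomputable section

open Filter Topology
open scoped BoundedContinuousFunction

namespace Vale.Agent.P095.General

universe u v

variable {A : Type u} [NonUnitalCStarAlgebra A]

lemma inr_mem (a : A) : (a : Unitization ℂ A) ∈ (unitIdl A).carrier := mem_unitIdl.2 ⟨a, rfl⟩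

/-- A dense sequence of the algebra, in the unitization. -/
def denseIdl [TopologicalSpace.SeparableSpace A] : DenseIn (unitIdl A) where
  seq t := ((TopologicalSpace.denseSeq A t : A) : Unitization ℂ A)
  mem t := inr_mem _
  dense x hx := by
    obtain ⟨a, rfl⟩ := mem_unitIdl.1 hx
    have hc : Continuous fun a : A => (a : Unitization ℂ A) :=
      (Isometry.of_dist_eq fun a b => by
        rw [dist_eq_norm, dist_eq_norm, ← Unitization.inr_sub, Unitization.norm_inr]).continuous
    exact map_mem_closure hc ((TopologicalSpace.denseRange_denseSeq A) a)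
      (fun y ⟨t, ht⟩ => ⟨t, by rw [← ht]⟩)

/-- A sequence which is a two-sided approximate unit. -/
theorem exists_unit_seq [TopologicalSpace.SeparableSpace A] :
    ∃ e : ℕ →ᵇ A, ∀ b : A, Tendsto (fun n => ‖e n * b - b‖) atTop (𝓝 0) ∧
      Tendsto (fun n => ‖b * e n - b‖) atTop (𝓝 0) := by
  let := CStarAlgebra.spectralOrder A
  have := CStarAlgebra.spectralOrderedRing A
  obtain ⟨d, hd⟩ := TopologicalSpace.exists_dense_seq A
  have hl := CStarAlgebra.increasingApproximateUnit (A := A)
  have := hl.toIsApproximateUnit.neBot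
  have step : ∀ n : ℕ, ∃ u : A, ‖u‖ ≤ 1 ∧ ∀ i ≤ n,
      ‖u * d i - d i‖ ≤ 1 / ((n : ℝ) + 1) ∧ ‖d i * u - d i‖ ≤ 1 / ((n : ℝ) + 1) := fun n => by
    have hpos : (0 : ℝ) < 1 / ((n : ℝ) + 1) := by positivity
    refine (hl.eventually_norm.and ((Set.finite_Iic n).eventually_all.2 fun i _ => ?_)).exists
    exact ((tendsto_iff_norm_sub_tendsto_zero.1
      (hl.toIsApproximateUnit.tendsto_mul_right (d i))).eventually_le_const hpos).and
      ((tendsto_iff_norm_sub_tendsto_zero.1
        (hl.toIsApproximateUnit.tendsto_mul_left (d i))).eventually_le_const hpos)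
  choose u hu1 hu using step
  refine ⟨BoundedContinuousFunction.ofNormedAddCommGroupDiscrete u 1 hu1, fun b => ?_⟩
  constructor <;> refine Metric.tendsto_nhds.2 fun ε hε => ?_ <;>
    obtain ⟨i, hi⟩ := hd.exists_dist_lt b (show 0 < ε / 4 by positivity) <;>
    rw [dist_eq_norm] at hi <;>
    filter_upwards [(tendsto_one_div_add_atTop_nhds_zero_nat (𝕜 := ℝ)).eventually_lt_const
      (show 0 < ε / 4 by positivity), eventually_ge_atTop i] with n h1 h2 <;>
    rw [Real.dist_eq, sub_zero, abs_of_nonneg (norm_nonneg _)]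
  · show ‖u n * b - b‖ < ε
    calc ‖u n * b - b‖ = ‖u n * (b - d i) + (u n * d i - d i) - (b - d i)‖ := by
          congr 1; rw [mul_sub]; abel
      _ ≤ ‖u n * (b - d i)‖ + ‖u n * d i - d i‖ + ‖b - d i‖ :=
          (norm_sub_le _ _).trans (add_le_add (norm_add_le _ _) le_rfl)
      _ < ε := by
          have := (norm_mul_le (u n) (b - d i)).trans
            (mul_le_of_le_one_left (norm_nonneg _) (hu1 n))
          linarith [(hu n i h2).1]
  · show ‖b * u n - b‖ < ε
    calc ‖b * u n - b‖ = ‖(b - d i) * u n + (d i * u n - d i) - (b - d i)‖ := by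
          congr 1; rw [sub_mul]; abel
      _ ≤ ‖(b - d i) * u n‖ + ‖d i * u n - d i‖ + ‖b - d i‖ :=
          (norm_sub_le _ _).trans (add_le_add (norm_add_le _ _) le_rfl)
      _ < ε := by
          have := (norm_mul_le (b - d i) (u n)).trans
            (mul_le_of_le_one_right (norm_nonneg _) (hu1 n))
          linarith [(hu n i h2).2]

/-- A sequence of the algebra in the unitization. -/
def inrSeq (a : ℕ →ᵇ A) : ℕ →ᵇ Unitization ℂ A :=
  BoundedContinuousFunction.ofNormedAddCommGroupDiscrete (fun n => (a n : Unitization ℂ A)) ‖a‖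
    fun n => by rw [Unitization.norm_inr]; exact a.norm_coe_le_norm n

@[simp] lemma inrSeq_apply (a : ℕ →ᵇ A) (n : ℕ) : inrSeq a n = (a n : Unitization ℂ A) := rfl

variable (ω : Ultrafilter ℕ)

lemma isCentralI_inrSeq {a : ℕ →ᵇ A} (h : IsCentralA ω a) :
    IsCentralI ω (unitIdl A) (inrSeq a) := fun x hx => by
  obtain ⟨b, rfl⟩ := mem_unitIdl.1 hx
  refine (h b).congr fun n => ?_
  rw [inrSeq_apply, ← Unitization.inr_mul, ← Unitization.inr_mul, ← Unitization.inr_sub,
    Unitization.norm_inr]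

lemma isCentralA_of_inrSeq {a : ℕ →ᵇ A} (h : IsCentralI ω (unitIdl A) (inrSeq a)) :
    IsCentralA ω a := fun b => by
  refine (h _ (inr_mem b)).congr fun n => ?_
  rw [inrSeq_apply, ← Unitization.inr_mul, ← Unitization.inr_mul, ← Unitization.inr_sub,
    Unitization.norm_inr]

/-- The class of a central sequence of the algebra. -/
def cls (a : ℕ →ᵇ A) (h : IsCentralA ω a) : FA ω A :=
  projI ω (unitIdl A) ⟨inrSeq a, isCentralI_inrSeq ω h⟩

lemma cls_eq_of_eq {a : ℕ →ᵇ A} {h : IsCentralA ω a} {x : ↥(centralI ω (unitIdl A))}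
    (e : ∀ n, (x : ℕ →ᵇ Unitization ℂ A) n = (a n : Unitization ℂ A)) :
    projI ω (unitIdl A) x = cls ω a h :=
  congrArg (projI ω (unitIdl A)) (Subtype.ext (BoundedContinuousFunction.ext fun n => e n))

lemma isAnnA_of_right {a : ℕ →ᵇ A} (h : IsCentralA ω a)
    (hr : ∀ b : A, Tendsto (fun n => ‖a n * b‖) (ω : Filter ℕ) (𝓝 0)) : IsAnnA ω a := fun b => by
  refine squeeze_zero (g := fun n => ‖a n * b‖ + (‖a n * b‖ + ‖a n * b - b * a n‖))
    (fun n => by positivity) (fun n => add_le_add le_rfl ?_) ?_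
  · calc ‖b * a n‖ = ‖a n * b - (a n * b - b * a n)‖ := by rw [sub_sub_cancel]
      _ ≤ _ := norm_sub_le _ _
  · simpa using (hr b).add ((hr b).add (h b))

lemma cls_eq_zero_iff {a : ℕ →ᵇ A} (h : IsCentralA ω a) : cls ω a h = 0 ↔ IsAnnA ω a := by
  rw [cls, ← map_zero (projI ω (unitIdl A)), projI_eq_iff]
  constructor
  · intro hn
    refine isAnnA_of_right ω h fun b => (hn _ (inr_mem b)).congr fun n => ?_
    show ‖(inrSeq a - 0) n * _‖ = _
    rw [sub_zero, inrSeq_apply, ← Unitization.inr_mul, Unitization.norm_inr]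
  · intro hn x hx
    obtain ⟨b, rfl⟩ := mem_unitIdl.1 hx
    refine squeeze_zero (fun n => norm_nonneg _) (fun n => ?_) (hn b)
    show ‖(inrSeq a - 0) n * _‖ ≤ _
    rw [sub_zero, inrSeq_apply, ← Unitization.inr_mul, Unitization.norm_inr]
    exact le_add_of_nonneg_right (norm_nonneg _)

/-- Every class has a representative in the algebra. -/
theorem exists_repA {e : ℕ →ᵇ A}
    (he : ∀ b : A, Tendsto (fun n => ‖e n * b - b‖) (ω : Filter ℕ) (𝓝 0) ∧
      Tendsto (fun n => ‖b * e n - b‖) (ω : Filter ℕ) (𝓝 0)) (z : FA ω A) :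
    ∃ (a : ℕ →ᵇ A) (h : IsCentralA ω a), cls ω a h = z := by
  obtain ⟨x, rfl⟩ := projI_surjective ω (unitIdl A) z
  choose a ha using fun n => mem_unitIdl.1
    ((unitIdl A).mul_mem_left ((x : ℕ →ᵇ Unitization ℂ A) n) (inr_mem (e n)))
  let a' : ℕ →ᵇ A := BoundedContinuousFunction.ofNormedAddCommGroupDiscrete a
    (‖(x : ℕ →ᵇ Unitization ℂ A)‖ * ‖e‖) fun n => by
      rw [← Unitization.norm_inr (𝕜 := ℂ) (a n), ha n]
      refine (norm_mul_le _ _).trans (mul_le_mul (BoundedContinuousFunction.norm_coe_le_norm _ n) ?_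
        (norm_nonneg _) (norm_nonneg _))
      rw [Unitization.norm_inr]
      exact e.norm_coe_le_norm n
  have hce : IsCentralA ω e := fun b => by
    refine squeeze_zero (fun n => norm_nonneg _) (fun n => ?_)
      (((he b).1.add (he b).2).trans (by simp))
    calc ‖e n * b - b * e n‖ = ‖(e n * b - b) - (b * e n - b)‖ := by rw [sub_sub_sub_cancel_right]
      _ ≤ _ := norm_sub_le _ _
  let E : ↥(centralI ω (unitIdl A)) := ⟨inrSeq e, isCentralI_inrSeq ω hce⟩
  have hval : ∀ n, inrSeq a' n = ((x * E : ↥(centralI ω (unitIdl A))) : ℕ →ᵇ Unitization ℂ A) n :=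
    fun n => ha n
  have hca : IsCentralA ω a' := isCentralA_of_inrSeq ω (by
    rw [show inrSeq a' = ((x * E : ↥(centralI ω (unitIdl A))) : ℕ →ᵇ Unitization ℂ A) from
      BoundedContinuousFunction.ext hval]
    exact (x * E).2)
  refine ⟨a', hca, ?_⟩
  have hE : projI ω (unitIdl A) E = 1 := by
    rw [← map_one (projI ω (unitIdl A)), projI_eq_iff]
    intro y hy
    obtain ⟨b, rfl⟩ := mem_unitIdl.1 hy
    refine (he b).1.congr fun n => ?_
    show _ = ‖((e n : Unitization ℂ A) - 1) * (b : Unitization ℂ A)‖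
    rw [sub_mul, one_mul, ← Unitization.inr_mul, ← Unitization.inr_sub, Unitization.norm_inr]
  rw [← cls_eq_of_eq ω (h := hca) (x := x * E) fun n => (hval n).symm, map_mul, hE, mul_one]

/-- An automorphism of the algebra on its unitization. -/
def liftAut (φ : A ≃⋆ₐ[ℂ] A) : Unitization ℂ A ≃⋆ₐ[ℂ] Unitization ℂ A :=
  StarAlgEquiv.ofStarAlgHom (Unitization.starMap (φ : A →⋆ₙₐ[ℂ] A))
    (Unitization.starMap (φ.symm : A →⋆ₙₐ[ℂ] A))
    (StarAlgHom.ext fun x => by
      induction x using Unitization.ind with | _ c a => simp [Unitization.algebraMap_eq_inl])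
    (StarAlgHom.ext fun x => by
      induction x using Unitization.ind with | _ c a => simp [Unitization.algebraMap_eq_inl])

lemma liftAut_inr (φ : A ≃⋆ₐ[ℂ] A) (a : A) :
    liftAut φ (a : Unitization ℂ A) = ((φ a : A) : Unitization ℂ A) :=
  Unitization.starMap_inr _ a

lemma pres_liftAut (φ : A ≃⋆ₐ[ℂ] A) : Pres (unitIdl A) (liftAut φ) := fun x hx => by
  obtain ⟨a, rfl⟩ := mem_unitIdl.1 hx
  refine ⟨by rw [liftAut_inr]; exact inr_mem _, ?_⟩
  have : (liftAut φ).symm (a : Unitization ℂ A) = ((φ.symm a : A) : Unitization ℂ A) := by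
    rw [StarAlgEquiv.symm_apply_eq, liftAut_inr, StarAlgEquiv.apply_symm_apply]
  rw [this]
  exact inr_mem _

lemma liftAut_mul {G : Type v} [Group G] (α : G → A ≃⋆ₐ[ℂ] A)
    (hα : ∀ g h x, α (g * h) x = α g (α h x)) (g h : G) (x : Unitization ℂ A) :
    liftAut (α (g * h)) x = liftAut (α g) (liftAut (α h) x) := by
  induction x using Unitization.ind with
  | _ c a =>
    simp only [map_add, liftAut_inr, hα]
    congr 1
    have e : (Unitization.inl c : Unitization ℂ A) = algebraMap ℂ (Unitization ℂ A) c := rfl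
    rw [e]
    simp only [AlgHomClass.commutes]

end Vale.Agent.P095.General
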