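import Mathlib
import Vale.Agent.P101.Quot

/-!
The central sequence algebra of a C*-algebra which need not be unital: bounded sequences in the
unitization which asymptotically commute with the algebra, modulo those annihilating it.
-/

noncomputable section

open Filter Topology
open scoped BoundedContinuousFunction

namespace Vale.Agent.P095.General

open Vale.Agent.P101 (nrm tendsto_nrm nrm_add nrm_mul nrm_smul nrm_neg nrm_le nrm_nonneg nrm_zero
  continuous_nrm cst)

universe u

/-- A left unit for an element in any unital C*-algebra, made from the element on the left. -/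
lemma exists_left_unit {D : Type u} [CStarAlgebra D] (a : D) {δ : ℝ} (hδ : 0 < δ) :
    ∃ w : D, ‖a * w‖ ≤ 1 ∧ ‖a * w * a - a‖ ≤ δ := by
  let := CStarAlgebra.spectralOrder D
  have := CStarAlgebra.spectralOrderedRing D
  set P : D := a * star a with hP
  have hpos : 0 ≤ P := mul_star_self_nonneg a
  have hPs : IsSelfAdjoint P := hpos.isSelfAdjoint
  have e2 : 0 < δ ^ 2 := by positivity
  let h : ℝ → ℝ := fun t => (max |t| (δ ^ 2))⁻¹
  have hh : Continuous h := Continuous.inv₀ (by fun_prop) fun t => by positivity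
  let k : ℝ → ℝ := fun t => t * h t - 1
  have hk : Continuous k := (continuous_id.mul hh).sub continuous_const
  have hu : a * (star a * cfc h P) = cfc (fun t => t * h t) P := by
    rw [← mul_assoc, ← hP, cfc_mul (fun t => t) h P (hf := continuousOn_id) (hg := hh.continuousOn),
      cfc_id' ℝ P]
  refine ⟨star a * cfc h P, ?_, ?_⟩
  · rw [hu]
    refine norm_cfc_le zero_le_one fun t _ => ?_
    rw [Real.norm_eq_abs, abs_mul, abs_inv, abs_of_pos (show 0 < max |t| (δ ^ 2) by positivity),
      ← div_eq_mul_inv, div_le_one (by positivity)]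
    exact le_max_left _ _
  · have e : a * (star a * cfc h P) * a - a = cfc k P * a := by
      rw [show cfc k P = cfc (fun t => t * h t) P - 1 by
        rw [cfc_sub (fun t => t * h t) (fun _ => (1 : ℝ)) P (hf := (continuous_id.mul hh).continuousOn)
          (hg := continuousOn_const), cfc_const_one ℝ P], hu, sub_mul,
        one_mul]
    have h1 : ‖cfc k P * a‖ * ‖cfc k P * a‖ ≤ δ * δ := by
      rw [← CStarRing.norm_self_mul_star, star_mul, (IsSelfAdjoint.cfc (f := k) (a := P)).star_eq,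
        ← mul_assoc, mul_assoc (cfc k P) a, ← hP]
      rw [show cfc k P * P * cfc k P = cfc (fun t => k t * t * k t) P by
        rw [cfc_mul (fun t => k t * t) k P (hf := (hk.mul continuous_id).continuousOn)
          (hg := hk.continuousOn), cfc_mul k (fun t => t) P (hf := hk.continuousOn) (hg := continuousOn_id),
          cfc_id' ℝ P]]
      refine norm_cfc_le (by positivity) fun t htP => ?_
      have ht : 0 ≤ t := spectrum_nonneg_of_nonneg hpos htP
      rw [Real.norm_eq_abs, abs_mul, abs_mul, abs_of_nonneg ht]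
      rcases le_or_gt (δ ^ 2) t with hl | hl
      · have : k t = 0 := by
          show t * (max |t| (δ ^ 2))⁻¹ - 1 = 0
          rw [abs_of_nonneg ht, max_eq_left hl, mul_inv_cancel₀ (by linarith), sub_self]
        simp [this]; positivity
      · have hk1 : |k t| ≤ 1 := by
          show |t * (max |t| (δ ^ 2))⁻¹ - 1| ≤ 1
          rw [abs_of_nonneg ht, max_eq_right hl.le, abs_le]
          have h3 : 0 ≤ t * (δ ^ 2)⁻¹ := by positivity
          have h4 : t * (δ ^ 2)⁻¹ ≤ 1 := by
            rw [← div_eq_mul_inv, div_le_one e2]; exact hl.le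
          constructor <;> linarith
        calc |k t| * t * |k t| ≤ 1 * δ ^ 2 * 1 :=
              mul_le_mul (mul_le_mul hk1 hl.le ht zero_le_one) hk1 (abs_nonneg _) (by positivity)
          _ = δ * δ := by ring
    rw [e]
    exact nonneg_le_nonneg_of_sq_le_sq hδ.le h1

/-- A two-sided star ideal of a unital C*-algebra. -/
structure StarIdl (B : Type u) [CStarAlgebra B] where
  /-- The elements. -/
  carrier : Set B
  zero_mem : (0 : B) ∈ carrier
  mul_mem_left : ∀ (x : B) {a : B}, a ∈ carrier → x * a ∈ carrier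
  mul_mem_right : ∀ (x : B) {a : B}, a ∈ carrier → a * x ∈ carrier
  star_mem : ∀ {a : B}, a ∈ carrier → star a ∈ carrier

variable {B : Type u} [CStarAlgebra B] (ω : Ultrafilter ℕ) (I : StarIdl B)

/-- An element of the ideal as a constant sequence. -/
def cstI (a : B) : ℕ →ᵇ B := cst a

@[simp] lemma cstI_apply (a : B) (n : ℕ) : cstI a n = a := rfl

lemma norm_cstI_le (a : B) : ‖cstI a‖ ≤ ‖a‖ :=
  (BoundedContinuousFunction.norm_le (norm_nonneg a)).2 fun _ => le_rfl

/-- Asymptotically commuting with the ideal. -/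
def IsCentralI (x : ℕ →ᵇ B) : Prop :=
  ∀ a ∈ I.carrier, Tendsto (fun n => ‖x n * a - a * x n‖) (ω : Filter ℕ) (𝓝 0)

/-- Asymptotically annihilating the ideal. -/
def IsNullI (x : ℕ →ᵇ B) : Prop :=
  ∀ a ∈ I.carrier, Tendsto (fun n => ‖x n * a‖) (ω : Filter ℕ) (𝓝 0)

/-- The seminorm given by the products with the unit ball of the ideal. -/
def nI (x : ℕ →ᵇ B) : ℝ := ⨆ a : {a : B // a ∈ I.carrier ∧ ‖a‖ ≤ 1}, nrm ω (x * cstI a.1)

variable {ω} {I}

lemma isCentralI_iff (x : ℕ →ᵇ B) :
    IsCentralI ω I x ↔ ∀ a ∈ I.carrier, nrm ω (x * cstI a - cstI a * x) = 0 := by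
  refine forall₂_congr fun a _ => ?_
  rw [← Vale.Agent.P101.isNull_iff]
  rfl

instance : Nonempty {a : B // a ∈ I.carrier ∧ ‖a‖ ≤ 1} := ⟨⟨0, I.zero_mem, by simp⟩⟩

lemma bddAbove_nI (x : ℕ →ᵇ B) :
    BddAbove (Set.range fun a : {a : B // a ∈ I.carrier ∧ ‖a‖ ≤ 1} => nrm ω (x * cstI a.1)) := by
  refine ⟨‖x‖, ?_⟩
  rintro _ ⟨a, rfl⟩
  exact (nrm_le _).trans ((norm_mul_le _ _).trans
    (mul_le_of_le_one_right (norm_nonneg _) ((norm_cstI_le a.1).trans a.2.2)))

lemma nI_le_norm (x : ℕ →ᵇ B) : nI ω I x ≤ ‖x‖ :=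
  ciSup_le fun a => (nrm_le _).trans ((norm_mul_le _ _).trans
    (mul_le_of_le_one_right (norm_nonneg _) ((norm_cstI_le a.1).trans a.2.2)))

lemma nI_nonneg (x : ℕ →ᵇ B) : 0 ≤ nI ω I x :=
  le_ciSup_of_le (bddAbove_nI x) ⟨0, I.zero_mem, by simp⟩ (nrm_nonneg _)

lemma cstI_smul (z : ℂ) (a : B) : cstI (z • a) = z • cstI a :=
  BoundedContinuousFunction.ext fun _ => rfl

lemma cstI_zero : cstI (0 : B) = 0 := BoundedContinuousFunction.ext fun _ => rfl

lemma nrm_cstI_le (x : ℕ →ᵇ B) {a : B} (hI : a ∈ I.carrier) :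
    nrm ω (x * cstI a) ≤ nI ω I x * ‖a‖ := by
  rcases eq_or_ne a 0 with rfl | ha
  · rw [cstI_zero, mul_zero, norm_zero, mul_zero, nrm_zero]
  · have h0 : (0 : ℝ) < ‖a‖ := norm_pos_iff.2 ha
    let b : {a : B // a ∈ I.carrier ∧ ‖a‖ ≤ 1} := ⟨((‖a‖⁻¹ : ℝ) : ℂ) • a,
      by rw [Algebra.smul_def]; exact I.mul_mem_left _ hI, by
      rw [norm_smul, Complex.norm_real, norm_inv, norm_norm, inv_mul_cancel₀ h0.ne']⟩
    have e : x * cstI a = ((‖a‖ : ℝ) : ℂ) • (x * cstI b.1) := by
      rw [cstI_smul, mul_smul_comm, smul_smul, ← Complex.ofReal_mul, mul_inv_cancel₀ h0.ne',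
        Complex.ofReal_one, one_smul]
    rw [e, nrm_smul, Complex.norm_real, norm_norm, mul_comm]
    exact mul_le_mul_of_nonneg_right (le_ciSup (bddAbove_nI x) b) h0.le

lemma nI_le_of {x : ℕ →ᵇ B} {c : ℝ} (hc : 0 ≤ c)
    (h : ∀ a ∈ I.carrier, nrm ω (x * cstI a) ≤ c * ‖a‖) : nI ω I x ≤ c :=
  ciSup_le fun a => (h a.1 a.2.1).trans (mul_le_of_le_one_right hc a.2.2)

lemma nI_zero : nI ω I (0 : ℕ →ᵇ B) = 0 :=
  le_antisymm (nI_le_of le_rfl fun a _ => by rw [zero_mul, zero_mul, nrm_zero]) (nI_nonneg _)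

lemma nI_add (x y : ℕ →ᵇ B) : nI ω I (x + y) ≤ nI ω I x + nI ω I y :=
  nI_le_of (add_nonneg (nI_nonneg x) (nI_nonneg y)) fun a ha => by
    rw [add_mul x y, add_mul]
    exact (nrm_add _ _).trans (add_le_add (nrm_cstI_le x ha) (nrm_cstI_le y ha))

lemma nI_neg (x : ℕ →ᵇ B) : nI ω I (-x) = nI ω I x := by
  simp only [nI, neg_mul, nrm_neg]

lemma nI_smul_le (z : ℂ) (x : ℕ →ᵇ B) : nI ω I (z • x) ≤ ‖z‖ * nI ω I x :=
  nI_le_of (mul_nonneg (norm_nonneg _) (nI_nonneg x)) fun a ha => by
    rw [smul_mul_assoc, nrm_smul, mul_assoc]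
    exact mul_le_mul_of_nonneg_left (nrm_cstI_le x ha) (norm_nonneg _)

lemma isNullI_iff (x : ℕ →ᵇ B) : IsNullI ω I x ↔ nI ω I x = 0 := by
  have e : IsNullI ω I x ↔ ∀ a ∈ I.carrier, nrm ω (x * cstI a) = 0 := by
    refine forall₂_congr fun a _ => ?_
    rw [← Vale.Agent.P101.isNull_iff]
    rfl
  rw [e]
  exact ⟨fun h => le_antisymm (nI_le_of le_rfl fun a ha => by rw [h a ha, zero_mul]) (nI_nonneg _),
    fun h a ha => le_antisymm (by simpa [h] using nrm_cstI_le (ω := ω) x ha) (nrm_nonneg _)⟩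

/-- Left units up to any error. -/
lemma exists_unit {a : B} (ha : a ∈ I.carrier) {δ : ℝ} (hδ : 0 < δ) :
    ∃ u ∈ I.carrier, ‖u‖ ≤ 1 ∧ ‖u * a - a‖ ≤ δ := by
  obtain ⟨w, hw1, hw2⟩ := exists_left_unit a hδ
  exact ⟨a * w, I.mul_mem_right w ha, hw1, hw2⟩

variable (ω) (I)

/-- The sequences asymptotically commuting with the ideal. -/
def centralI : StarSubalgebra ℂ (ℕ →ᵇ B) where
  carrier := {x | IsCentralI ω I x}
  mul_mem' {x y} hx hy a ha := by
    refine squeeze_zero (g := fun n => ‖x‖ * ‖y n * a - a * y n‖ + ‖x n * a - a * x n‖ * ‖y‖)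
      (fun n => norm_nonneg _) (fun n => ?_) ?_
    · calc ‖(x * y) n * a - a * (x * y) n‖
          = ‖x n * (y n * a - a * y n) + (x n * a - a * x n) * y n‖ := by
            simp only [BoundedContinuousFunction.mul_apply]; congr 1; noncomm_ring
        _ ≤ ‖x n‖ * ‖y n * a - a * y n‖ + ‖x n * a - a * x n‖ * ‖y n‖ :=
            (norm_add_le _ _).trans (add_le_add (norm_mul_le _ _) (norm_mul_le _ _))
        _ ≤ _ := by gcongr <;> exact BoundedContinuousFunction.norm_coe_le_norm _ n
    · simpa using (Tendsto.const_mul ‖x‖ (hy a ha)).add (Tendsto.mul_const ‖y‖ (hx a ha))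
  one_mem' a _ := by simp
  add_mem' {x y} hx hy a ha := by
    refine squeeze_zero (g := fun n => ‖x n * a - a * x n‖ + ‖y n * a - a * y n‖)
      (fun n => norm_nonneg _) (fun n => ?_) (by simpa using (hx a ha).add (hy a ha))
    refine le_of_eq_of_le ?_ (norm_add_le _ _)
    simp only [BoundedContinuousFunction.add_apply]; congr 1; noncomm_ring
  zero_mem' a _ := by simp
  algebraMap_mem' z a _ := by
    simp [BoundedContinuousFunction.algebraMap_apply]
  star_mem' {x} hx a ha := by
    refine (hx (star a) (I.star_mem ha)).congr fun n => ?_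
    rw [← norm_star (x n * star a - star a * x n), norm_sub_rev]
    simp [star_sub, star_mul]

lemma mem_centralI {x : ℕ →ᵇ B} : x ∈ centralI ω I ↔ IsCentralI ω I x := Iff.rfl

instance isClosed_centralI : IsClosed (centralI ω I : Set (ℕ →ᵇ B)) := by
  have : (centralI ω I : Set (ℕ →ᵇ B))
      = ⋂ a ∈ I.carrier, {x | nrm ω (x * cstI a - cstI a * x) = 0} := by
    ext x; simp [SetLike.mem_coe, mem_centralI, isCentralI_iff]
  rw [this]
  exact isClosed_biInter fun a _ => isClosed_eq (continuous_nrm.comp (by fun_prop)) continuous_const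

variable {ω} {I}

lemma nI_mul {x y : ℕ →ᵇ B} (hy : IsCentralI ω I y) : nI ω I (x * y) ≤ nI ω I x * nI ω I y := by
  refine nI_le_of (mul_nonneg (nI_nonneg x) (nI_nonneg y)) fun a ha =>
    le_of_forall_pos_le_add fun δ hδ => ?_
  obtain ⟨u, huI, hu, hua⟩ := exists_unit ha (show 0 < δ / (‖x‖ * ‖y‖ + 1) by positivity)
  have hb : ∀ n, ‖(x * y * cstI a) n‖ ≤ ‖(x * cstI u) n‖ * ‖(y * cstI a) n‖
      + (‖x‖ * ‖y‖ * (δ / (‖x‖ * ‖y‖ + 1)) + ‖x‖ * (‖y n * u - u * y n‖ * ‖a‖)) := by
    intro n
    simp only [BoundedContinuousFunction.mul_apply, cstI_apply]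
    calc ‖x n * y n * a‖
        = ‖x n * u * (y n * a) + (-(x n * y n * (u * a - a))
            + x n * ((y n * u - u * y n) * a))‖ := by congr 1; noncomm_ring
      _ ≤ _ := by
        refine (norm_add_le _ _).trans (add_le_add (norm_mul_le _ _)
          ((norm_add_le _ _).trans (add_le_add ?_ ?_)))
        · rw [norm_neg]
          exact (norm_mul_le _ _).trans (mul_le_mul ((norm_mul_le _ _).trans
            (mul_le_mul (x.norm_coe_le_norm n) (y.norm_coe_le_norm n) (norm_nonneg _)
              (norm_nonneg _))) hua (norm_nonneg _) (by positivity))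
        · refine (norm_mul_le _ _).trans (mul_le_mul (x.norm_coe_le_norm n)
            ((norm_mul_le _ _).trans ?_) (norm_nonneg _) (norm_nonneg _))
          exact le_rfl
  have h1 := le_of_tendsto_of_tendsto' (tendsto_nrm (ω := ω) (x * y * cstI a))
    (((tendsto_nrm (ω := ω) (x * cstI u)).mul (tendsto_nrm (ω := ω) (y * cstI a))).add
      ((tendsto_const_nhds (x := ‖x‖ * ‖y‖ * (δ / (‖x‖ * ‖y‖ + 1)))).add
        (((hy u huI).mul_const ‖a‖).const_mul ‖x‖))) hb
  have h2 := mul_le_mul ((nrm_cstI_le (ω := ω) x huI).trans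
    (mul_le_of_le_one_right (nI_nonneg x) hu)) (nrm_cstI_le (ω := ω) y ha) (nrm_nonneg _)
    (nI_nonneg x)
  have h3 : ‖x‖ * ‖y‖ * (δ / (‖x‖ * ‖y‖ + 1)) ≤ δ := by
    rw [mul_div_assoc', div_le_iff₀ (by positivity)]
    nlinarith [norm_nonneg x, norm_nonneg y]
  nlinarith

lemma nI_sq_le {x : ℕ →ᵇ B} : nI ω I x * nI ω I x ≤ nI ω I (star x * x) := by
  have h : nI ω I x ≤ Real.sqrt (nI ω I (star x * x)) := nI_le_of (Real.sqrt_nonneg _) fun a ha => by
    have h1 : nrm ω (x * cstI a) * nrm ω (x * cstI a) ≤ nI ω I (star x * x) * (‖a‖ * ‖a‖) := by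
      rw [← Vale.Agent.P101.nrm_star_mul, star_mul, mul_assoc, ← mul_assoc (star x)]
      refine (nrm_mul _ _).trans ?_
      calc nrm ω (star (cstI a)) * nrm ω (star x * x * cstI a)
          ≤ ‖a‖ * (nI ω I (star x * x) * ‖a‖) := mul_le_mul
            ((nrm_le _).trans (by rw [norm_star]; exact norm_cstI_le a)) (nrm_cstI_le _ ha)
            (nrm_nonneg _) (norm_nonneg _)
        _ = _ := by ring
    have h2 := Real.mul_self_sqrt (nI_nonneg (ω := ω) (I := I) (star x * x))
    nlinarith [nrm_nonneg (ω := ω) (x * cstI a), norm_nonneg a,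
      mul_nonneg (Real.sqrt_nonneg (nI ω I (star x * x))) (norm_nonneg a)]
  calc nI ω I x * nI ω I x ≤ Real.sqrt (nI ω I (star x * x)) * Real.sqrt (nI ω I (star x * x)) :=
        mul_le_mul h h (nI_nonneg x) (Real.sqrt_nonneg _)
    _ = _ := Real.mul_self_sqrt (nI_nonneg _)

lemma nI_star {x : ℕ →ᵇ B} (hx : IsCentralI ω I x) : nI ω I (star x) = nI ω I x := by
  have key : ∀ y : ℕ →ᵇ B, IsCentralI ω I y → nI ω I y ≤ nI ω I (star y) := fun y hy => by
    have h := nI_sq_le.trans (nI_mul (ω := ω) (x := star y) hy)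
    rcases (nI_nonneg (ω := ω) y).eq_or_lt with h0 | h0
    · rw [← h0]; exact nI_nonneg _
    · exact le_of_mul_le_mul_right h h0
  refine le_antisymm ?_ (key x hx)
  simpa using key (star x) ((centralI ω I).star_mem' hx)

variable (ω) (I)

/-- Central sequences with the seminorm. -/
def PreI : Type u := ↥(centralI ω I)

instance : Ring (PreI ω I) := inferInstanceAs (Ring ↥(centralI ω I))
instance : StarRing (PreI ω I) := inferInstanceAs (StarRing ↥(centralI ω I))
instance : Algebra ℂ (PreI ω I) := inferInstanceAs (Algebra ℂ ↥(centralI ω I))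
instance : StarModule ℂ (PreI ω I) := inferInstanceAs (StarModule ℂ ↥(centralI ω I))

/-- The sequence underlying an element of `PreI`. -/
def PreI.seq (x : PreI ω I) : ℕ →ᵇ B := Subtype.val x

/-- The seminorm on `PreI`. -/
def preISeminorm : AddGroupSeminorm (PreI ω I) where
  toFun x := nI ω I (PreI.seq ω I x)
  map_zero' := nI_zero
  add_le' _ _ := nI_add _ _
  neg' _ := nI_neg _

instance : SeminormedAddCommGroup (PreI ω I) := (preISeminorm ω I).toSeminormedAddCommGroup

instance : SeminormedRing (PreI ω I) where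
  __ : Ring (PreI ω I) := inferInstance
  __ : SeminormedAddCommGroup (PreI ω I) := inferInstance
  norm_mul_le _ y := nI_mul y.2

instance : NormedAlgebra ℂ (PreI ω I) where
  __ : Algebra ℂ (PreI ω I) := inferInstance
  norm_smul_le z _ := nI_smul_le z _

instance : NormedStarGroup (PreI ω I) := ⟨fun x => (nI_star x.2).le⟩

/-- The central sequence algebra F(A). -/
abbrev FQ : Type u := SeparationQuotient (PreI ω I)

instance : Star (FQ ω I) :=
  ⟨SeparationQuotient.lift (fun x => SeparationQuotient.mk (star x)) fun _ _ h =>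
    SeparationQuotient.mk_eq_mk.2 (h.map continuous_star)⟩

instance : StarRing (FQ ω I) where
  star_involutive := by
    rintro ⟨a⟩
    show SeparationQuotient.mk (star (star a)) = _
    rw [star_star]; rfl
  star_mul := by
    rintro ⟨a⟩ ⟨b⟩
    show SeparationQuotient.mk (star (a * b)) = _
    rw [star_mul]; rfl
  star_add := by
    rintro ⟨a⟩ ⟨b⟩
    show SeparationQuotient.mk (star (a + b)) = _
    rw [star_add]; rfl

instance : StarModule ℂ (FQ ω I) where
  star_smul z := by
    rintro ⟨a⟩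
    show SeparationQuotient.mk (star (z • a)) = _
    rw [star_smul]; rfl

instance : CStarRing (FQ ω I) where
  norm_mul_self_le := by
    rintro ⟨a⟩
    exact nI_sq_le (x := PreI.seq ω I a)

/-- The quotient map. -/
def projI : ↥(centralI ω I) →⋆ₐ[ℂ] FQ ω I where
  toFun x := SeparationQuotient.mk (show PreI ω I from x)
  map_one' := rfl
  map_mul' _ _ := rfl
  map_zero' := rfl
  map_add' _ _ := rfl
  commutes' _ := rfl
  map_star' _ := rfl

lemma norm_projI (x : ↥(centralI ω I)) : ‖projI ω I x‖ = nI ω I (x : ℕ →ᵇ B) := rfl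

lemma projI_surjective : Function.Surjective (projI ω I) :=
  fun x => SeparationQuotient.surjective_mk x

lemma projI_eq_iff (x y : ↥(centralI ω I)) :
    projI ω I x = projI ω I y ↔ IsNullI ω I ((x : ℕ →ᵇ B) - (y : ℕ →ᵇ B)) := by
  rw [isNullI_iff, ← sub_eq_zero, ← norm_eq_zero, ← map_sub (projI ω I) x y, norm_projI]
  rfl

lemma continuous_projI : Continuous (projI ω I) :=
  AddMonoidHomClass.continuous_of_bound (projI ω I) 1 fun x => by
    rw [one_mul, norm_projI]
    exact nI_le_norm _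

/-- A function of a positive sequence supported above its seminorm is null. -/
lemma map_cfc_eq_zero {C : Type u} [CStarAlgebra C] {R : Type u} [NormedRing R] [NormedAlgebra ℂ R]
    [StarRing R] (π : C →⋆ₐ[ℂ] R)
    (hπ : ∀ z, ‖π z‖ ≤ ‖z‖) {P : C} (hP : IsSelfAdjoint P) {t₀ : ℝ} (ht : 0 < t₀)
    (hPn : ‖π P‖ < t₀) {c : ℝ → ℝ} (hc : Continuous c) (hc1 : ∀ t, |c t| ≤ 1)
    (hc0 : ∀ t, t ≤ t₀ → c t = 0) : π (cfc c P) = 0 := by
  have key : ∀ k : ℕ, ‖π (cfc c P)‖ ≤ (‖π P‖ / t₀) ^ k := fun k => by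
    let d : ℝ → ℝ := fun t => c t / (max t t₀) ^ k
    have hd : Continuous d := hc.div (by fun_prop) fun t => by positivity
    have e : cfc c P = P ^ k * cfc d P := by
      rw [← cfc_pow_id (R := ℝ) P k, ← cfc_mul _ d P (hf := (continuous_pow k).continuousOn)
        (hg := hd.continuousOn)]
      refine cfc_congr fun t _ => ?_
      show c t = t ^ k * (c t / max t t₀ ^ k)
      rcases le_or_gt t t₀ with h | h
      · simp [hc0 t h]
      · rw [max_eq_left h.le, mul_div_cancel₀ _ (pow_ne_zero k (ne_of_gt (ht.trans h)))]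
    have hd1 : ‖π (cfc d P)‖ ≤ (1 / t₀) ^ k := (hπ _).trans (norm_cfc_le (by positivity)
      fun t _ => by
        rw [Real.norm_eq_abs, one_div, inv_pow, abs_div, abs_of_pos (show 0 < max t t₀ ^ k by positivity),
          ← one_div]
        exact div_le_div₀ zero_le_one (hc1 t) (by positivity)
          (pow_le_pow_left₀ ht.le (le_max_right _ _) k))
    rcases k.eq_zero_or_pos with rfl | hk
    · rw [pow_zero]
      exact (hπ _).trans (norm_cfc_le zero_le_one fun t _ => by
        rw [Real.norm_eq_abs]; exact hc1 t)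
    · rw [e, map_mul, map_pow]
      calc ‖π P ^ k * π (cfc d P)‖ ≤ ‖π P‖ ^ k * (1 / t₀) ^ k :=
            (norm_mul_le _ _).trans (mul_le_mul (norm_pow_le' _ hk) hd1 (norm_nonneg _)
              (by positivity))
        _ = _ := by rw [← mul_pow, ← div_eq_mul_one_div]
  refine norm_le_zero_iff.1 (ge_of_tendsto' (tendsto_pow_atTop_nhds_zero_of_lt_one (by positivity)
    (by rw [div_lt_one ht]; exact hPn)) key)

/-- Cutting a lift down to the norm of its image. -/
lemma exists_lift_cut {C : Type u} [CStarAlgebra C] {R : Type u} [NormedRing R] [NormedAlgebra ℂ R]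
    [StarRing R] [CStarRing R] (π : C →⋆ₐ[ℂ] R) (hπ : ∀ z, ‖π z‖ ≤ ‖z‖) (z : C) {r : ℝ}
    (hzr : ‖π z‖ < r) : ∃ y : C, π y = π z ∧ ‖y‖ ≤ r := by
  let := CStarAlgebra.spectralOrder C
  have := CStarAlgebra.spectralOrderedRing C
  have hr : 0 < r := (norm_nonneg _).trans_lt hzr
  set P : C := star z * z
  have hP : IsSelfAdjoint P := IsSelfAdjoint.star_mul_self z
  let g : ℝ → ℝ := fun t => r / max r (Real.sqrt t)
  have hg : Continuous g := Continuous.div continuous_const (by fun_prop) fun t => by positivity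
  have hg1 : ∀ t, |1 - g t| ≤ 1 := fun t => by
    have h1 : g t ≤ 1 := div_le_one_of_le₀ (le_max_left _ _) (by positivity)
    have h2 : 0 ≤ g t := by positivity
    rw [abs_of_nonneg (by linarith)]; linarith
  have hn : π (cfc (fun t => 1 - g t) P) = 0 := by
    refine map_cfc_eq_zero π hπ hP (t₀ := r ^ 2) (by positivity) ?_
      (continuous_const.sub hg) hg1 fun t ht => ?_
    · rw [map_mul, map_star, CStarRing.norm_star_mul_self, ← sq]
      exact pow_lt_pow_left₀ hzr (norm_nonneg _) two_ne_zero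
    · have : Real.sqrt t ≤ r := Real.sqrt_le_iff.2 ⟨hr.le, ht⟩
      show 1 - r / max r (Real.sqrt t) = 0
      rw [max_eq_left this, div_self hr.ne', sub_self]
  refine ⟨z * cfc g P, ?_, ?_⟩
  · rw [cfc_sub (fun _ => (1 : ℝ)) g P (hf := continuousOn_const) (hg := hg.continuousOn),
      cfc_const_one ℝ P, map_sub, map_one, sub_eq_zero] at hn
    rw [map_mul, ← hn, mul_one]
  · refine nonneg_le_nonneg_of_sq_le_sq hr.le ?_
    rw [← CStarRing.norm_star_mul_self, star_mul, (IsSelfAdjoint.cfc (f := g) (a := P)).star_eq,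
      mul_assoc, ← mul_assoc (star z) z]
    rw [show cfc g P * (P * cfc g P) = cfc (fun t => g t * (t * g t)) P by
      rw [cfc_mul g (fun t => t * g t) P (hf := hg.continuousOn)
        (hg := (continuous_id.mul hg).continuousOn), cfc_mul (fun t => t) g P (hf := continuousOn_id)
        (hg := hg.continuousOn), cfc_id' ℝ P]]
    refine norm_cfc_le (by positivity) fun t htP => ?_
    have ht0 : 0 ≤ t := spectrum_nonneg_of_nonneg (star_mul_self_nonneg z) htP
    rw [Real.norm_eq_abs, abs_of_nonneg (by positivity)]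
    show r / max r (Real.sqrt t) * (t * (r / max r (Real.sqrt t))) ≤ r * r
    rw [div_mul_eq_mul_div, mul_div_assoc', mul_div_assoc', div_div, div_le_iff₀ (by positivity)]
    have h3 : t ≤ max r (Real.sqrt t) * max r (Real.sqrt t) := by
      nlinarith [Real.mul_self_sqrt ht0, le_max_right r (Real.sqrt t), Real.sqrt_nonneg t,
        le_max_left r (Real.sqrt t)]
    nlinarith

/-- Every class has representatives of almost the same norm. -/
lemma exists_repI (x : FQ ω I) {ε : ℝ} (hε : 0 < ε) :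
    ∃ y : ↥(centralI ω I), projI ω I y = x ∧ ‖y‖ ≤ ‖x‖ + ε := by
  obtain ⟨z, rfl⟩ := projI_surjective ω I x
  exact exists_lift_cut (projI ω I) (fun w => (norm_projI ω I w).le.trans (nI_le_norm _)) z
    (lt_add_of_pos_right _ hε)

instance : CompleteSpace (FQ ω I) := by
  refine NormedAddCommGroup.completeSpace_of_summable_imp_tendsto fun u hu => ?_
  choose a ha hn using fun k => exists_repI ω I (u k) (show (0 : ℝ) < (1 / 2) ^ k by positivity)
  have hs : Summable a :=
    Summable.of_norm_bounded (hu.add summable_geometric_two) hn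
  refine ⟨projI ω I (∑' k, a k), ?_⟩
  have := ((continuous_projI ω I).tendsto _).comp hs.hasSum.tendsto_sum_nat
  simpa [Function.comp_def, map_sum, ha] using this

instance : CStarAlgebra (FQ ω I) where

/-- The algebra inside its unitization, as an ideal. -/
def unitIdl (A : Type u) [NonUnitalCStarAlgebra A] : StarIdl (Unitization ℂ A) where
  carrier := {x | x.fst = 0}
  zero_mem := rfl
  mul_mem_left x a (ha : a.fst = 0) := show (x * a).fst = 0 by rw [Unitization.fst_mul, ha, mul_zero]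
  mul_mem_right x a (ha : a.fst = 0) := show (a * x).fst = 0 by rw [Unitization.fst_mul, ha, zero_mul]
  star_mem {a} (ha : a.fst = 0) := show (star a).fst = 0 by rw [Unitization.fst_star, ha, star_zero]

lemma mem_unitIdl {A : Type u} [NonUnitalCStarAlgebra A] {x : Unitization ℂ A} :
    x ∈ (unitIdl A).carrier ↔ ∃ a : A, (a : Unitization ℂ A) = x :=
  ⟨fun (h : x.fst = 0) => ⟨x.snd, by ext <;> simp [h]⟩, fun ⟨a, ha⟩ => ha ▸ rfl⟩

/-- F(A) for a C*-algebra which need not be unital. -/
abbrev FA (A : Type u) [NonUnitalCStarAlgebra A] : Type u := FQ ω (unitIdl A)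

end Vale.Agent.P095.General
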