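import Vale.Agent.P095.General.Defs
import Vale.Agent.P095.General.Central.Base
import Vale.Agent.P101.Central

/-!
Saturation of the central sequence algebra for countably many relations.
-/

noncomputable section

open Filter Topology
open scoped BoundedContinuousFunction

namespace Vale.Agent.P095.General

open Vale.Agent.P101 (nrm tendsto_nrm)

universe u v

variable {B : Type u} [CStarAlgebra B] {G : Type v}

/-- Pointwise values of a term, the constants at a given index. -/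
def Tm.evalAt {E : Type u} {ι : Type} (α : G → B ≃⋆ₐ[ℂ] B) (val : E → B) (x : ι → B) :
    Tm G E ι → B
  | .var i => x i
  | .cst d => val d
  | .add s t => s.evalAt α val x + t.evalAt α val x
  | .mul s t => s.evalAt α val x * t.evalAt α val x
  | .smul z t => z • t.evalAt α val x
  | .adj t => star (t.evalAt α val x)
  | .app g t => α g (t.evalAt α val x)

variable [Group G] (ω : Ultrafilter ℕ) (I : StarIdl B) (α : G → B ≃⋆ₐ[ℂ] B)
  (hP : ∀ g, Pres I (α g)) (hα : ∀ g h x, α (g * h) x = α g (α h x))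

include hP in
/-- Terms of central sequences are central sequences, evaluated at each index. -/
lemma exists_eval_seq {ι : Type} (r : FQ ω I → ↥(centralI ω I)) (hr : ∀ z, projI ω I (r z) = z)
    (x : ι → ↥(centralI ω I)) (t : Tm G (FQ ω I) ι) :
    ∃ y : ↥(centralI ω I), projI ω I y = t.eval (actI ω I α hP hα) (fun i => projI ω I (x i)) ∧
      ∀ n, (y : ℕ →ᵇ B) n
        = t.evalAt α (fun d => (r d : ℕ →ᵇ B) n) (fun i => (x i : ℕ →ᵇ B) n) := by
  induction t with
  | var i => exact ⟨x i, rfl, fun n => rfl⟩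
  | cst d => exact ⟨r d, hr d, fun n => rfl⟩
  | add s t hs ht =>
    obtain ⟨y, h1, h2⟩ := hs
    obtain ⟨z, h3, h4⟩ := ht
    exact ⟨y + z, by simp [Tm.eval, map_add, h1, h3], fun n => by simp [Tm.evalAt, h2, h4]⟩
  | mul s t hs ht =>
    obtain ⟨y, h1, h2⟩ := hs
    obtain ⟨z, h3, h4⟩ := ht
    exact ⟨y * z, by simp [Tm.eval, map_mul, h1, h3], fun n => by simp [Tm.evalAt, h2, h4]⟩
  | smul c t ht =>
    obtain ⟨z, h3, h4⟩ := ht
    exact ⟨c • z, by simp [Tm.eval, map_smul, h3], fun n => by simp [Tm.evalAt, h4]⟩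
  | adj t ht =>
    obtain ⟨z, h3, h4⟩ := ht
    exact ⟨star z, by simp [Tm.eval, map_star, h3], fun n => by simp [Tm.evalAt, h4]⟩
  | app g t ht =>
    obtain ⟨z, h3, h4⟩ := ht
    exact ⟨centralActI ω I (hP g) z, by rw [Tm.eval, ← h3, actI_proj],
      fun n => by rw [coe_centralActI, Tm.evalAt, h4]⟩

include hP in
/-- Relations which can be satisfied approximately can be satisfied exactly. -/
theorem saturateI (hω : (ω : Filter ℕ) ≤ cofinite) (D : DenseIn I) (n : ℕ) (Bd : ℝ)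
    (t : ℕ → Tm G (FQ ω I) (Fin n))
    (h : ∀ (j₀ : ℕ) (ε : ℝ), 0 < ε → ∃ x : Fin n → FQ ω I, (∀ i, ‖x i‖ ≤ Bd) ∧
      ∀ j < j₀, ‖(t j).eval (actI ω I α hP hα) x‖ ≤ ε) :
    ∃ x : Fin n → FQ ω I, (∀ i, ‖x i‖ ≤ Bd) ∧ ∀ j, (t j).eval (actI ω I α hP hα) x = 0 := by
  classical
  let r : FQ ω I → ↥(centralI ω I) := Function.surjInv (projI_surjective ω I)
  have hr : ∀ z, projI ω I (r z) = z := Function.surjInv_eq (projI_surjective ω I)
  let δ : ℕ → ℝ := fun k => 1 / ((k : ℝ) + 1)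
  have hδ : ∀ k, 0 < δ k := fun k => Nat.one_div_pos_of_nat
  have hδ1 : ∀ k, δ k ≤ 1 := fun k => by
    show 1 / ((k : ℝ) + 1) ≤ 1
    rw [div_le_one (by positivity)]; simp
  choose xs hxn hxt using fun k => h k (δ k) (hδ k)
  choose X hXp hXn using fun k i => exists_repI ω I (xs k i) (hδ k)
  have hB : ∀ k i, ‖X k i‖ ≤ Bd + 1 := fun k i =>
    (hXn k i).trans (add_le_add (hxn k i) (hδ1 k))
  have hev : ∀ k j, j < k → ∃ y : ↥(centralI ω I), ‖projI ω I y‖ ≤ δ k ∧
      ∀ p, (y : ℕ →ᵇ B) p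
        = (t j).evalAt α (fun d => (r d : ℕ →ᵇ B) p) (fun i => (X k i : ℕ →ᵇ B) p) :=
    fun k j hj => by
      obtain ⟨y, hy1, hy2⟩ := exists_eval_seq ω I α hP hα r hr (X k) (t j)
      refine ⟨y, ?_, hy2⟩
      rw [hy1]
      simp only [hXp]
      exact hxt k j hj
  let P : ℕ → ℕ → Prop := fun k p =>
    (∀ i, ∀ s ∈ Finset.range k, ‖(X k i : ℕ →ᵇ B) p * D.seq s - D.seq s * (X k i : ℕ →ᵇ B) p‖ ≤ δ k) ∧
    ∀ j ∈ Finset.range k, ∀ s ∈ Finset.range k,
      ‖(t j).evalAt α (fun d => (r d : ℕ →ᵇ B) p) (fun i => (X k i : ℕ →ᵇ B) p) * D.seq s‖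
        ≤ δ k * ‖D.seq s‖ + δ k
  have hP' : ∀ k, ∀ᶠ p in (ω : Filter ℕ), P k p := fun k => by
    refine (Filter.eventually_all.2 fun i => (Finset.eventually_all _).2 fun s _ => ?_).and
      ((Finset.eventually_all _).2 fun j hj => (Finset.eventually_all _).2 fun s _ => ?_)
    · exact ((X k i).2 _ (D.mem s)).eventually_le_const (hδ k)
    · obtain ⟨y, hy1, hy2⟩ := hev k j (Finset.mem_range.1 hj)
      have hlt : nrm ω ((y : ℕ →ᵇ B) * cstI (D.seq s)) < δ k * ‖D.seq s‖ + δ k :=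
        ((nrm_cstI_le (ω := ω) (y : ℕ →ᵇ B) (D.mem s)).trans
          (mul_le_mul_of_nonneg_right (by rw [← norm_projI]; exact hy1) (norm_nonneg _))).trans_lt
          (lt_add_of_pos_right _ (hδ k))
      refine ((tendsto_nrm (ω := ω) _).eventually_le_const hlt).mono fun p hp => ?_
      rw [← hy2]
      exact hp
  have hat := Vale.Agent.P101.tendsto_atTop_omega hω
  let φ : ℕ → ℕ := fun p => Nat.findGreatest (fun k => P k p) p
  have hφ : ∀ K, ∀ᶠ p in (ω : Filter ℕ), K ≤ φ p ∧ P (φ p) p := fun K => by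
    filter_upwards [hP' K, hat (eventually_ge_atTop K)] with p hp hKp
    exact ⟨Nat.le_findGreatest hKp hp, Nat.findGreatest_spec (P := fun k => P k p) hKp hp⟩
  let W : Fin n → ℕ →ᵇ B := fun i => BoundedContinuousFunction.ofNormedAddCommGroupDiscrete
    (fun p => (X (φ p) i : ℕ →ᵇ B) p) (Bd + 1)
    fun p => ((X (φ p) i : ℕ →ᵇ B).norm_coe_le_norm p).trans (hB _ i)
  have small : ∀ ε : ℝ, 0 < ε → ∀ K, ∀ᶠ p in (ω : Filter ℕ),
      K ≤ φ p ∧ P (φ p) p ∧ δ (φ p) < ε := by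
    intro ε hε K
    obtain ⟨K', hK'⟩ := exists_nat_one_div_lt hε
    filter_upwards [hφ (max K K')] with p hp
    refine ⟨le_of_max_le_left hp.1, hp.2, lt_of_le_of_lt ?_ hK'⟩
    exact one_div_le_one_div_of_le (by positivity)
      (by exact_mod_cast Nat.add_le_add_right (le_of_max_le_right hp.1) 1)
  have hWc : ∀ i, IsCentralI ω I (W i) := fun i => isCentralI_of_dense D fun s => by
    refine Metric.tendsto_nhds.2 fun ε hε => ?_
    filter_upwards [small ε hε (s + 1)] with p hp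
    rw [Real.dist_eq, sub_zero, abs_of_nonneg (norm_nonneg _)]
    exact (hp.2.1.1 i s (Finset.mem_range.2 (by omega))).trans_lt hp.2.2
  let Wc : Fin n → ↥(centralI ω I) := fun i => ⟨W i, hWc i⟩
  refine ⟨fun i => projI ω I (Wc i), fun i => ?_, fun j => ?_⟩
  · rw [norm_projI]
    refine le_of_forall_pos_le_add fun ε hε => ?_
    have hBd : 0 ≤ Bd := (norm_nonneg _).trans (hxn 0 i)
    refine nI_le_of_eventually (by positivity) ((small ε hε 0).mono fun p hp => ?_)
    exact ((X (φ p) i : ℕ →ᵇ B).norm_coe_le_norm p).trans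
      ((hXn _ i).trans (add_le_add (hxn _ i) hp.2.2.le))
  · obtain ⟨y, hy1, hy2⟩ := exists_eval_seq ω I α hP hα r hr Wc (t j)
    rw [← hy1, ← map_zero (projI ω I), projI_eq_iff]
    refine isNullI_of_dense D fun s => Metric.tendsto_nhds.2 fun ε hε => ?_
    obtain ⟨ε', hε', hεs⟩ : ∃ ε', 0 < ε' ∧ ε' * ‖D.seq s‖ + ε' < ε :=
      ⟨ε / (2 * (‖D.seq s‖ + 1)), by positivity, by
        rw [div_mul_eq_mul_div, ← add_div, div_lt_iff₀ (by positivity)]
        nlinarith [norm_nonneg (D.seq s)]⟩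
    filter_upwards [small ε' hε' (max j s + 1)] with p hp
    rw [Real.dist_eq, sub_zero, abs_of_nonneg (norm_nonneg _)]
    show ‖((y : ℕ →ᵇ B) - 0) p * D.seq s‖ < ε
    rw [sub_zero, hy2]
    refine lt_of_le_of_lt ((hp.2.1.2 j (Finset.mem_range.2 (by omega)) s
      (Finset.mem_range.2 (by omega))).trans ?_) hεs
    exact add_le_add (mul_le_mul_of_nonneg_right hp.2.2.le (norm_nonneg _)) hp.2.2.le

end Vale.Agent.P095.General
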